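import Vale.Agent.P338.GS.Iface2
import Vale.Agent.P338.GS.IO

/-!
# P338, stage 5: every block is repeated
-/

namespace Vale.Agent.P338.GS.RP

open Vale.Agent.P338 Vale.Agent.P338.GS Vale.Agent.P338.GS.IO

variable {J E : Type} [DecidableEq J]

/-- Put `|u|` copies of the contents of `a` on top of `b`. -/
theorem r_rep {u a b t t' : W} (hua : u ≠ a) (hub : u ≠ b) (hut : u ≠ t)
    (hut' : u ≠ t') (hab : a ≠ b) (hat : a ≠ t) (hat' : a ≠ t') (hbt : b ≠ t)
    (hbt' : b ≠ t') (htt' : t ≠ t') (s : SW J E) (n : ℕ) (hu : s.at u = una n)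
    (ht : s.at t = []) (ht' : s.at t' = []) :
    Runs (Prog.repOnto (Sum.inr u) (Sum.inr a) (Sum.inr b) (Sum.inr t) (Sum.inr t') : PW J E) s
      (s.set b (rep n (s.at a) ++ s.at b)) (n * (6 * (s.at a).length + 8) + 1) :=
  Runs.repOnto (by simpa using hua) (by simpa using hub) (by simpa using hut)
    (by simpa using hut') (by simpa using hab) (by simpa using hat) (by simpa using hat')
    (by simpa using hbt) (by simpa using hbt') (by simpa using htt') mk s n hu ht ht'

/-- The treatment of one block. -/
def blkP : PW J E :=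
  (Prog.forr (Sum.inr .HX) (Sum.inr .F1) (Prog.mov (Sum.inr .T1) (Sum.inr .T2))).seq <|
  (Prog.repOnto (Sum.inr .HR) (Sum.inr .T2) (Sum.inr .N3) (Sum.inr .F1) (Sum.inr .F2)).seq <|
  Prog.clear (Sum.inr .T2)

theorem blk_runs (L R : ℕ) (b rest : List (SSym E)) (hb : b.length = L) (s : SW J E)
    (h1 : s.at .F1 = []) (h2 : s.at .F2 = []) (h3 : s.at .T2 = []) (hx : s.at .HX = una L)
    (hr : s.at .HR = una R) (ht : s.at .T1 = b.reverse ++ rest) :
    Runs blkP s ((s.set .T1 rest).set .N3 (rep R b ++ s.at .N3))
      (11 * L + R * (6 * L + 8) + 4) := by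
  have a1 := r_movs (J := J) (u := .HX) (t := .F1) (x := .T1) (o := .T2) (by decide)
    (by decide) (by decide) (by decide) (by decide) (by decide) s b.reverse rest L
    (by simp [hb]) hx h1 ht
  rw [List.reverse_reverse, h3, List.append_nil] at a1
  set s1 := (s.set .T1 rest).set .T2 b with e1
  have a2 := r_rep (J := J) (u := .HR) (a := .T2) (b := .N3) (t := .F1) (t' := .F2) (by decide)
    (by decide) (by decide) (by decide) (by decide) (by decide) (by decide) (by decide)
    (by decide) (by decide) s1 R (by simp [s1, at_set, hr]) (by simp [s1, at_set, h1])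
    (by simp [s1, at_set, h2])
  have c2 : s1.at .T2 = b := by simp [s1]
  have c3 : s1.at .N3 = s.at .N3 := by simp [s1, at_set]
  rw [c2, c3, hb] at a2
  set s2 := s1.set .N3 (rep R b ++ s.at .N3) with e2
  have a3 := r_clear (J := J) .T2 s2
  have c4 : (s2.at .T2).length = L := by simp [s2, s1, at_set, hb]
  rw [c4] at a3
  refine ((a1.seq (a2.seq a3)).mono (by omega)).of_eq ?_
  refine sw_ext (fun j => by simp [s2, s1]) fun r => ?_
  simp only [s2, s1, at_set]
  split_ifs <;> simp_all

/-- All blocks. -/
def lpP : PW J E := Prog.loop (nonempty (Sum.inr .T1)) blkP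

theorem lp_runs (L R : ℕ) (hL : 1 ≤ L) (b : ℕ → List (SSym E)) (hb : ∀ i, (b i).length = L)
    (n : ℕ) : ∀ s : SW J E, s.at .F1 = [] → s.at .F2 = [] → s.at .T2 = [] →
    s.at .HX = una L → s.at .HR = una R → s.at .T1 = (cat n b).reverse →
    Runs lpP s ((s.set .T1 []).set .N3 (cat n (fun i => rep R (b i)) ++ s.at .N3))
      (n * (11 * L + R * (6 * L + 8) + 6)) := by
  induction n with
  | zero =>
    intro s _ _ _ _ _ ht
    have ht' : s.at .T1 = [] := by rw [ht]; rfl
    refine ((Runs.loopF (by
      have : s (Sum.inr .T1) = [] := ht'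
      simp [this])).of_eq ?_).mono (by omega)
    refine sw_ext (fun j => by simp) fun r => ?_
    simp only [at_set, cat_zero]
    split_ifs <;> simp_all
  | succ n ih =>
    intro s h1 h2 h3 hx hr ht
    rw [cat_succ, List.reverse_append] at ht
    have a1 := blk_runs L R (b n) _ (hb n) s h1 h2 h3 hx hr ht
    have a2 := ih ((s.set .T1 (cat n b).reverse).set .N3 (rep R (b n) ++ s.at .N3))
      (by simp [at_set, h1]) (by simp [at_set, h2]) (by simp [at_set, h3])
      (by simp [at_set, hx]) (by simp [at_set, hr]) (by simp [at_set])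
    have hne : nonempty (Sum.inr W.T1) (tops s) = true := by
      have e : s (Sum.inr .T1) = (b n).reverse ++ (cat n b).reverse := ht
      have e' : (b n).reverse ≠ [] := by
        intro h0
        have := congrArg List.length h0
        rw [List.length_reverse, hb n] at this
        simp at this
        omega
      rw [nonempty_tops, e]
      cases h : (b n).reverse with
      | nil => exact absurd h e'
      | cons a l => simp
    refine ((Runs.loopT (c := nonempty (Sum.inr W.T1)) (p := blkP) hne a1 a2).mono ?_).of_eq ?_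
    · rw [Nat.add_mul]
      omega
    · refine sw_ext (fun j => by simp) fun r => ?_
      rw [cat_succ]
      simp only [at_set]
      split_ifs <;> simp_all

/-- The program. -/
def repP : PW J E :=
  (Prog.rev (Sum.inr .N1) (Sum.inr .T1)).seq <| lpP.seq <|
  (Prog.clear (Sum.inr .HX)).seq <| Prog.clear (Sum.inr .HR)

theorem repSpec : RepSpec (repP : PW J E) 25 := by
  intro n L R b hL hb
  unfold WRun
  set s : SW J E := asW [(.N1, cat n b), (.HX, una L), (.HR, una R)] with hs
  have a1 := r_rev (J := J) (a := .N1) (b := .T1) (by decide) s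
  have c1 : s.at .N1 = cat n b := by simp [hs]
  have c2 : s.at .T1 = [] := by simp [hs]
  have c3 : (cat n b).length = n * L := length_cat_of fun i _ => hb i
  rw [c1, c2, List.append_nil, c3] at a1
  set s1 := (s.set .N1 []).set .T1 (cat n b).reverse with e1
  have a2 := lp_runs (J := J) L R hL b hb n s1 (by simp [s1, hs, at_set])
    (by simp [s1, hs, at_set]) (by simp [s1, hs, at_set]) (by simp [s1, hs, at_set])
    (by simp [s1, hs, at_set]) (by simp [s1])
  have c4 : s1.at .N3 = [] := by simp [s1, hs, at_set]
  rw [c4, List.append_nil] at a2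
  set s2 := (s1.set .T1 []).set .N3 (cat n fun i => rep R (b i)) with e2
  have a3 := r_clear (J := J) .HX s2
  have c5 : (s2.at .HX).length = L := by simp [s2, s1, hs, at_set]
  rw [c5] at a3
  set s3 := s2.set .HX [] with e3
  have a4 := r_clear (J := J) .HR s3
  have c6 : (s3.at .HR).length = R := by simp [s3, s2, s1, hs, at_set]
  rw [c6] at a4
  refine ((a1.seq (a2.seq (a3.seq a4))).mono ?_).of_eq ?_
  · have h1 : n ≤ n * L := Nat.le_mul_of_pos_right n hL
    have h2 : n * R ≤ n * L * R := by
      calc n * R = n * 1 * R := by ring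
        _ ≤ n * L * R := Nat.mul_le_mul_right _ (Nat.mul_le_mul_left _ hL)
    nlinarith
  · refine sw_ext (fun j => by simp [s3, s2, s1, hs]) fun r => ?_
    simp only [s3, s2, s1, hs, at_set, asW_cons_at, asW_nil_at]
    split_ifs <;> simp_all

end Vale.Agent.P338.GS.RP
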